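import Crest.Agent.N255.Ra.Basic

/-!
# Row 255 (helper38): spherical cosets `w W_τ` of a right angled Coxeter group

`pr σ` = product of the generators of a finite clique, `InF w` = `In w` as a finset, `WT τ` = the
special subgroup, `bot w τ`, `top w τ` = shortest and longest element of `w W_τ`.
-/

set_option autoImplicit false

open scoped symmDiff

noncomputable section

namespace Crest.Agent.N255.Ra

variable {S S' : Type} {Γ : SimpleGraph S} {Γ' : SimpleGraph S'} {s t : S} {w u : W Γ} {σ σ' τ : Finset S}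

variable (Γ) in
/-- the product of the generators in `σ` (meaningful for cliques) -/
def pr (σ : Finset S) : W Γ := (σ.toList.map (gen Γ)).prod

variable (Γ) in
/-- special subgroups -/
def WT (A : Set S) : Subgroup (W Γ) := Subgroup.closure (gen Γ '' A)

/-- `In w` as a finite set -/
def InF (w : W Γ) : Finset S := (In_finite w).toFinset

@[simp] theorem mem_InF : s ∈ InF w ↔ s ∈ In w := Set.Finite.mem_toFinset _

@[simp] theorem coe_InF (w : W Γ) : (InF w : Set S) = In w := Set.Finite.coe_toFinset _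

theorem InF_clique (w : W Γ) : Γ.IsClique (InF w : Set S) := coe_InF w ▸ In_clique w

@[simp] theorem pr_empty : pr Γ ∅ = 1 := by simp [pr]

@[simp] theorem pr_singleton (s : S) : pr Γ {s} = gen Γ s := by simp [pr]

theorem gen_mem_WT {A : Set S} (h : s ∈ A) : gen Γ s ∈ WT Γ A := Subgroup.subset_closure ⟨s, h, rfl⟩

theorem WT_mono {A B : Set S} (h : A ⊆ B) : WT Γ A ≤ WT Γ B := Subgroup.closure_mono (Set.image_mono h)

theorem pr_mem_WT {A : Set S} (h : ↑σ ⊆ A) : pr Γ σ ∈ WT Γ A :=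
  Subgroup.list_prod_mem _ fun x hx => by
    obtain ⟨s, hs, rfl⟩ := List.mem_map.1 hx
    exact gen_mem_WT (h (Finset.mem_toList.1 hs))

theorem comm_pr (h : ∀ t ∈ σ, s ≠ t → Γ.Adj s t) : Commute (gen Γ s) (pr Γ σ) :=
  Commute.list_prod_right _ _ fun x hx => by
    obtain ⟨t, ht, rfl⟩ := List.mem_map.1 hx
    exact gen_comm' (h t (Finset.mem_toList.1 ht))

theorem comm_WT {A : Set S} (h : ∀ t ∈ A, s ≠ t → Γ.Adj s t) (hu : u ∈ WT Γ A) :
    Commute (gen Γ s) u := by
  induction hu using Subgroup.closure_induction with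
  | mem x hx => obtain ⟨t, ht, rfl⟩ := hx; exact gen_comm' (h t ht)
  | one => exact Commute.one_right _
  | mul x y _ _ a b => exact a.mul_right b
  | inv x _ a => exact a.inv_right

theorem pr_eq_list {l : List S} (hl : l.Nodup) (h : ∀ x, x ∈ l ↔ x ∈ σ) (hσ : Γ.IsClique (σ : Set S)) :
    pr Γ σ = (l.map (gen Γ)).prod := by
  have p : σ.toList.Perm l := (List.perm_ext_iff_of_nodup σ.nodup_toList hl).2 fun x => by
    rw [Finset.mem_toList, h]
  refine (p.map _).prod_eq' (List.pairwise_map.2 (List.pairwise_of_forall_mem_list fun a ha b hb => ?_))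
  exact gen_comm' (hσ (Finset.mem_toList.1 ha) (Finset.mem_toList.1 hb))

variable [DecidableEq S]

theorem pr_insert' (h : Γ.IsClique (↑(insert s σ) : Set S)) (hs : s ∉ σ) :
    pr Γ (insert s σ) = gen Γ s * pr Γ σ :=
  pr_eq_list (l := s :: σ.toList) (List.nodup_cons.2 ⟨by simpa using hs, σ.nodup_toList⟩) (by simp) h

theorem pr_insert (h : Γ.IsClique (↑(insert s σ) : Set S)) (hs : s ∉ σ) :
    pr Γ (insert s σ) = pr Γ σ * gen Γ s :=
  (pr_insert' h hs).trans (comm_pr fun t ht e => h (by simp) (by simp [ht]) e).eq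

theorem pr_erase (h : Γ.IsClique (σ : Set S)) (hs : s ∈ σ) : pr Γ (σ.erase s) = pr Γ σ * gen Γ s := by
  conv_rhs => rw [← Finset.insert_erase hs]
  rw [pr_insert (by rwa [Finset.insert_erase hs]) (Finset.notMem_erase s σ), mul_gen_gen]

theorem pr_mul_gen (h : Γ.IsClique (↑(insert s σ) : Set S)) : pr Γ σ * gen Γ s = pr Γ (σ ∆ {s}) := by
  by_cases hs : s ∈ σ
  · rw [← pr_erase (h.subset (by simp)) hs]
    congr 1; ext x; simp only [Finset.mem_erase, Finset.mem_symmDiff, Finset.mem_singleton]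
    by_cases e : x = s <;> simp [e, hs]
  · rw [← pr_insert h hs]
    congr 1; ext x; simp only [Finset.mem_insert, Finset.mem_symmDiff, Finset.mem_singleton]
    by_cases e : x = s <;> simp [e, hs]

theorem pr_mul_pr (hτ : Γ.IsClique (τ : Set S)) (h : σ ⊆ τ) (h' : σ' ⊆ τ) :
    pr Γ σ * pr Γ σ' = pr Γ (σ ∆ σ') := by
  induction σ' using Finset.induction_on with
  | empty => rw [pr_empty, mul_one, show σ ∆ ∅ = σ from symmDiff_bot σ]
  | insert s σ' hs ih =>
    have h1 : σ' ⊆ τ := (Finset.subset_insert _ _).trans h'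
    have h2 : s ∈ τ := h' (Finset.mem_insert_self _ _)
    rw [pr_insert (hτ.subset (Finset.coe_subset.2 h')) hs, ← mul_assoc, ih h1, pr_mul_gen (hτ.subset
      (Finset.coe_subset.2 (Finset.insert_subset h2 (Finset.symmDiff_subset_union.trans
        (Finset.union_subset h h1))))), symmDiff_assoc]
    congr 2; ext x; simp only [Finset.mem_insert, Finset.mem_symmDiff, Finset.mem_singleton]
    by_cases e : x = s <;> simp [e, hs]

omit [DecidableEq S] in
theorem pr_mul_self (h : Γ.IsClique (σ : Set S)) : pr Γ σ * pr Γ σ = 1 := by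
  classical
  rw [pr_mul_pr h subset_rfl subset_rfl, symmDiff_self, Finset.bot_eq_empty, pr_empty]

omit [DecidableEq S] in
theorem pr_inv (h : Γ.IsClique (σ : Set S)) : (pr Γ σ)⁻¹ = pr Γ σ := inv_eq_of_mul_eq_one_right (pr_mul_self h)

theorem pr_union (h : Γ.IsClique (↑(σ ∪ σ') : Set S)) (d : Disjoint σ σ') :
    pr Γ (σ ∪ σ') = pr Γ σ * pr Γ σ' := by
  rw [pr_mul_pr h Finset.subset_union_left Finset.subset_union_right, d.symmDiff_eq_sup]; rfl

omit [DecidableEq S] in
theorem mem_WT (hτ : Γ.IsClique (τ : Set S)) : u ∈ WT Γ τ ↔ ∃ σ ⊆ τ, u = pr Γ σ := by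
  classical
  refine ⟨fun hu => ?_, fun ⟨σ, h, e⟩ => e ▸ pr_mem_WT (Finset.coe_subset.2 h)⟩
  induction hu using Subgroup.closure_induction with
  | mem x hx => obtain ⟨t, ht, rfl⟩ := hx; exact ⟨{t}, by simpa using ht, by simp⟩
  | one => exact ⟨∅, by simp, by simp⟩
  | mul x y _ _ a b =>
    obtain ⟨σ, h, rfl⟩ := a
    obtain ⟨σ', h', rfl⟩ := b
    exact ⟨_, Finset.symmDiff_subset_union.trans (Finset.union_subset h h'), pr_mul_pr hτ h h'⟩
  | inv x _ a => obtain ⟨σ, h, rfl⟩ := a; exact ⟨σ, h, pr_inv (hτ.subset (Finset.coe_subset.2 h))⟩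

omit [DecidableEq S] in
/-- letters adjacent to all of `σ` do not see `pr σ` -/
theorem mem_In_mul_pr_adj (hσ : Γ.IsClique (σ : Set S)) (h : ∀ t ∈ σ, Γ.Adj t s) :
    s ∈ In (w * pr Γ σ) ↔ s ∈ In w := by
  classical
  induction σ using Finset.induction_on with
  | empty => simp
  | insert t σ ht ih =>
    rw [pr_insert hσ ht, ← mul_assoc, mem_In_mul_adj (h t (by simp)),
      ih (hσ.subset (by simp)) fun x hx => h x (by simp [hx])]

omit [DecidableEq S] in
/-- the descents of `w * pr σ` inside a clique `τ ⊇ σ` -/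
theorem mem_In_mul_pr (hτ : Γ.IsClique (τ : Set S)) (h : σ ⊆ τ) (hs : s ∈ τ) :
    s ∈ In (w * pr Γ σ) ↔ (s ∈ In w ↔ s ∉ σ) := by
  classical
  have hσ := hτ.subset (Finset.coe_subset.2 h)
  by_cases e : s ∈ σ
  · have := pr_erase hσ e
    rw [← mul_gen_gen (pr Γ σ) s, ← this, ← mul_assoc, mem_In_mul_self, mem_In_mul_pr_adj
      (hσ.subset (by simp)) fun t ht => hσ (Finset.mem_of_mem_erase ht) e (Finset.ne_of_mem_erase ht)]
    simp [e]
  · rw [mem_In_mul_pr_adj hσ fun t ht => hτ (h ht) hs fun x => e (x ▸ ht)]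
    simp [e]

theorem len_mul_pr (hσ : Γ.IsClique (σ : Set S)) (w : W Γ) :
    len (w * pr Γ σ) + (σ ∩ InF w).card = len w + (σ \ InF w).card := by
  induction σ using Finset.induction_on with
  | empty => simp
  | insert t σ ht ih =>
    have ih := ih (hσ.subset (by simp))
    have k := mem_In_mul_pr (w := w) hσ (Finset.subset_insert t σ) (Finset.mem_insert_self t σ)
    rw [pr_insert hσ ht, ← mul_assoc]
    by_cases e : t ∈ In w
    · have := len_mem (k.2 (by simp [e, ht]))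
      rw [Finset.insert_inter_of_mem (mem_InF.2 e), Finset.insert_sdiff_of_mem _ (mem_InF.2 e),
        Finset.card_insert_of_notMem (by simp [ht])]
      omega
    · have := len_nmem (fun x => by simpa [e, ht] using k.1 x)
      rw [Finset.insert_inter_of_notMem (by simpa using e), Finset.insert_sdiff_of_notMem _ (by simpa using e),
        Finset.card_insert_of_notMem (by simp [ht])]
      omega

omit [DecidableEq S] in
theorem len_mul_pr_up (hσ : Γ.IsClique (σ : Set S)) (h : ∀ s ∈ σ, s ∉ In w) :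
    len (w * pr Γ σ) = len w + σ.card := by
  classical
  have d : Disjoint σ (InF w) := Finset.disjoint_left.2 fun s hs => by simpa using h s hs
  have := len_mul_pr hσ w
  rwa [Finset.disjoint_iff_inter_eq_empty.1 d, Finset.sdiff_eq_self_of_disjoint d] at this

omit [DecidableEq S] in
theorem len_mul_pr_down (hσ : Γ.IsClique (σ : Set S)) (h : ∀ s ∈ σ, s ∈ In w) :
    len (w * pr Γ σ) + σ.card = len w := by
  classical
  have d : σ ⊆ InF w := fun s hs => by simpa using h s hs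
  have := len_mul_pr hσ w
  rwa [Finset.inter_eq_left.2 d, Finset.sdiff_eq_empty_iff_subset.2 d] at this

omit [DecidableEq S] in
theorem len_pr (hσ : Γ.IsClique (σ : Set S)) : len (pr Γ σ) = σ.card := by
  simpa using len_mul_pr_up (w := 1) hσ (by simp)

omit [DecidableEq S] in
/-- going up along a clique: the new descent set -/
theorem mem_In_mul_pr_up (hσ : Γ.IsClique (σ : Set S)) (h : ∀ s ∈ σ, s ∉ In w) :
    s ∈ In (w * pr Γ σ) ↔ s ∈ σ ∨ (s ∈ In w ∧ ∀ t ∈ σ, Γ.Adj t s) := by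
  have k : ∀ t ∈ σ, t ∈ In (w * pr Γ σ) := fun t ht =>
    (mem_In_mul_pr hσ subset_rfl ht).2 (by simp [ht, h t ht])
  refine ⟨fun x => or_iff_not_imp_left.2 fun e => ?_, fun x => x.elim (k s) fun x =>
    (mem_In_mul_pr_adj hσ x.2).2 x.1⟩
  have a : ∀ t ∈ σ, Γ.Adj t s := fun t ht => In_clique _ (k t ht) x fun y => e (y ▸ ht)
  exact ⟨(mem_In_mul_pr_adj hσ a).1 x, a⟩

omit [DecidableEq S] in
theorem In_pr (hσ : Γ.IsClique (σ : Set S)) : In (pr Γ σ) = σ := by
  ext s
  simpa using mem_In_mul_pr_up (w := 1) (s := s) hσ (by simp)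

omit [DecidableEq S] in
theorem pr_inj (hσ : Γ.IsClique (σ : Set S)) (hσ' : Γ.IsClique (σ' : Set S)) (h : pr Γ σ = pr Γ σ') :
    σ = σ' := Finset.coe_injective (by rw [← In_pr hσ, h, In_pr hσ'])

/-! ### shortest and longest element of a coset -/

/-- the shortest element of `w W_τ` -/
def bot (w : W Γ) (τ : Finset S) : W Γ := w * pr Γ (τ ∩ InF w)

/-- the longest element of `w W_τ` -/
def top (w : W Γ) (τ : Finset S) : W Γ := w * pr Γ (τ \ InF w)

theorem bot_mem (w : W Γ) (τ : Finset S) : w⁻¹ * bot w τ ∈ WT Γ τ := by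
  rw [bot, inv_mul_cancel_left]; exact pr_mem_WT (by simp)

theorem top_mem (w : W Γ) (τ : Finset S) : w⁻¹ * top w τ ∈ WT Γ τ := by
  rw [top, inv_mul_cancel_left]; exact pr_mem_WT (by simp)

theorem nmem_In_bot (hτ : Γ.IsClique (τ : Set S)) (hs : s ∈ τ) : s ∉ In (bot w τ) := by
  rw [bot, mem_In_mul_pr hτ Finset.inter_subset_left hs]
  by_cases e : s ∈ In w <;> simp [e, hs]

theorem mem_In_top (hτ : Γ.IsClique (τ : Set S)) (hs : s ∈ τ) : s ∈ In (top w τ) := by
  rw [top, mem_In_mul_pr hτ Finset.sdiff_subset hs]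
  simp [hs]

theorem eq_bot (hτ : Γ.IsClique (τ : Set S)) (h : w⁻¹ * u ∈ WT Γ τ) (d : ∀ s ∈ τ, s ∉ In u) :
    u = bot w τ := by
  obtain ⟨σ, hσ, e⟩ := (mem_WT hτ).1 h
  obtain rfl : u = w * pr Γ σ := by rw [← e, mul_inv_cancel_left]
  rw [bot]
  congr 2
  ext s
  refine ⟨fun x => Finset.mem_inter.2 ⟨hσ x, mem_InF.2 (by_contra fun y => ?_)⟩, fun x => by_contra fun y => ?_⟩
  · exact d s (hσ x) ((mem_In_mul_pr hτ hσ (hσ x)).2 (by simp [x, y]))
  · obtain ⟨x1, x2⟩ := Finset.mem_inter.1 x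
    exact d s x1 ((mem_In_mul_pr hτ hσ x1).2 (by simp [y, mem_InF.1 x2]))

theorem eq_top (hτ : Γ.IsClique (τ : Set S)) (h : w⁻¹ * u ∈ WT Γ τ) (d : ∀ s ∈ τ, s ∈ In u) :
    u = top w τ := by
  obtain ⟨σ, hσ, e⟩ := (mem_WT hτ).1 h
  obtain rfl : u = w * pr Γ σ := by rw [← e, mul_inv_cancel_left]
  rw [top]
  congr 2
  ext s
  refine ⟨fun x => Finset.mem_sdiff.2 ⟨hσ x, fun y => ?_⟩, fun x => by_contra fun y => ?_⟩
  · exact ((mem_In_mul_pr hτ hσ (hσ x)).1 (d s (hσ x))).1 (mem_InF.1 y) x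
  · obtain ⟨x1, x2⟩ := Finset.mem_sdiff.1 x
    exact x2 (mem_InF.2 (((mem_In_mul_pr hτ hσ x1).1 (d s x1)).2 y))

theorem bot_congr (hτ : Γ.IsClique (τ : Set S)) (h : w⁻¹ * u ∈ WT Γ τ) : bot u τ = bot w τ :=
  eq_bot hτ (by simpa [mul_assoc] using mul_mem h (bot_mem u τ)) fun _ hs => nmem_In_bot hτ hs

theorem top_congr (hτ : Γ.IsClique (τ : Set S)) (h : w⁻¹ * u ∈ WT Γ τ) : top u τ = top w τ :=
  eq_top hτ (by simpa [mul_assoc] using mul_mem h (top_mem u τ)) fun _ hs => mem_In_top hτ hs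

theorem bot_eq_self (d : ∀ s ∈ τ, s ∉ In w) : bot w τ = w := by
  rw [bot, Finset.disjoint_iff_inter_eq_empty.1 (Finset.disjoint_left.2 fun s hs => by simpa using d s hs),
    pr_empty, mul_one]

theorem top_eq_self (d : ∀ s ∈ τ, s ∈ In w) : top w τ = w := by
  rw [top, Finset.sdiff_eq_empty_iff_subset.2 fun s hs => mem_InF.2 (d s hs), pr_empty, mul_one]

theorem bot_mul_pr (hτ : Γ.IsClique (τ : Set S)) (w : W Γ) : bot w τ * pr Γ τ = top w τ := by
  rw [bot, top, mul_assoc, pr_mul_pr hτ Finset.inter_subset_left subset_rfl,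
    symmDiff_of_le (show τ ∩ InF w ≤ τ from Finset.inter_subset_left), Finset.sdiff_inter_self_left]

theorem top_mul_pr (hτ : Γ.IsClique (τ : Set S)) (w : W Γ) : top w τ * pr Γ τ = bot w τ := by
  rw [← bot_mul_pr hτ, mul_assoc, pr_mul_self hτ, mul_one]

theorem len_bot (hτ : Γ.IsClique (τ : Set S)) (w : W Γ) : len (bot w τ) + (τ ∩ InF w).card = len w :=
  len_mul_pr_down (hτ.subset (by simp)) fun s hs => mem_InF.1 (Finset.mem_inter.1 hs).2

theorem len_top (hτ : Γ.IsClique (τ : Set S)) (w : W Γ) : len (top w τ) = len w + (τ \ InF w).card :=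
  len_mul_pr_up (hτ.subset (by simp)) fun s hs => by
    simpa using (Finset.mem_sdiff.1 hs).2

theorem bot_mul (hτ : Γ.IsClique (τ : Set S)) (w : W Γ) : bot w τ * pr Γ (τ ∩ InF w) = w := by
  rw [bot, mul_assoc, pr_mul_self (hτ.subset (by simp)), mul_one]

theorem top_mul (hτ : Γ.IsClique (τ : Set S)) (w : W Γ) : top w τ * pr Γ (τ \ InF w) = w := by
  rw [top, mul_assoc, pr_mul_self (hτ.subset (by simp)), mul_one]

/-! ### graph maps -/

omit [DecidableEq S] in
theorem map_pr [DecidableEq S'] (φ : Γ →g Γ') (hσ : Γ.IsClique (σ : Set S)) :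
    map φ (pr Γ σ) = pr Γ' (σ.image φ) := by
  have i : Set.InjOn φ σ := fun a ha b hb e => by_contra fun n => (φ.map_adj (hσ ha hb n)).ne e
  have c : Γ'.IsClique (↑(σ.image φ) : Set S') := by
    rw [Finset.coe_image]
    rintro _ ⟨a, ha, rfl⟩ _ ⟨b, hb, rfl⟩ n
    exact φ.map_adj (hσ ha hb fun e => n (e ▸ rfl))
  rw [pr_eq_list (l := σ.toList.map φ) (σ.nodup_toList.map_on fun a ha b hb =>
    i (Finset.mem_toList.1 ha) (Finset.mem_toList.1 hb)) (by simp) c, pr, map_list_prod]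
  simp [List.map_map, Function.comp_def]

omit [DecidableEq S] in
theorem aut_pr [DecidableEq S'] (φ : Γ ≃g Γ') (hσ : Γ.IsClique (σ : Set S)) :
    aut φ (pr Γ σ) = pr Γ' (σ.image φ) := map_pr φ.toHom hσ

omit [DecidableEq S] in
theorem InF_aut [DecidableEq S'] (φ : Γ ≃g Γ') (w : W Γ) : InF (aut φ w) = (InF w).image φ :=
  Finset.coe_injective (by rw [coe_InF, Finset.coe_image, coe_InF, In_aut])

omit [DecidableEq S] in
theorem map_mem_WT (φ : Γ →g Γ') {A : Set S} (h : u ∈ WT Γ A) : map φ u ∈ WT Γ' (φ '' A) := by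
  induction h using Subgroup.closure_induction with
  | mem x hx => obtain ⟨t, ht, rfl⟩ := hx; rw [map_gen]; exact gen_mem_WT ⟨t, ht, rfl⟩
  | one => rw [map_one]; exact one_mem _
  | mul x y _ _ a b => rw [map_mul]; exact mul_mem a b
  | inv x _ a => rw [map_inv]; exact inv_mem a

omit [DecidableEq S] in
/-- a group acting on the graph acts on the Coxeter group -/
def autHom {F : Type} [Group F] (ρ : F →* (Γ ≃g Γ)) : F →* MulAut (W Γ) :=
  MonoidHom.mk' (fun g => aut (ρ g)) fun g h => MulEquiv.toMonoidHom_injective (hom_ext fun s => by simp)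

omit [DecidableEq S] in
theorem autHom_apply {F : Type} [Group F] (ρ : F →* (Γ ≃g Γ)) (g : F) : autHom ρ g = aut (ρ g) := rfl

end Crest.Agent.N255.Ra
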